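import Vale.Agent.P253.CStar.Final
import Vale.Agent.P253.CStar.Conv

open scoped Manifold ContDiff Bundle
open Bundle Vale.Agent.P253.Mfd Vale.Agent.P253.CStar

namespace Vale.Agent.Results.P253.AttractingCStar

/-- Let `M` be a complete connected noncompact Kähler manifold of nonnegative bisectional
curvature. (1) A holomorphic action of `ℂ*` on the complex manifold `M` (the metric is not assumed
to be invariant) with an attracting fixed point `p` at which the curvature is positive is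
isomorphic to the linear action on `T_p M = ℂ^n`, by a biholomorphism of at most exponential growth
in the radius of the circle orbits. (2) If the curvature is positive, `M` is
biholomorphic to `ℂ^n` if and only if the complex manifold `M` admits a holomorphic action of `ℂ*`
with an attracting fixed point. (3) The same for one-parameter groups of holomorphic isometries. -/
theorem result {E : Type*} [NormedAddCommGroup E] [NormedSpace ℂ E] [FiniteDimensional ℂ E]
    {M : Type*} [MetricSpace M] [ChartedSpace E M]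
    [IsManifold 𝓘(ℂ, E) 1 M] [IsManifold 𝓘(ℝ, E) ∞ M]
    [RiemannianBundle (fun x : M => TangentSpace 𝓘(ℝ, E) x)]
    [IsContMDiffRiemannianBundle 𝓘(ℝ, E) ∞ E (fun x : M => TangentSpace 𝓘(ℝ, E) x)]
    [IsRiemannianManifold 𝓘(ℝ, E) M]
    [CompleteSpace M] [NoncompactSpace M] [ConnectedSpace M] (hK : IsKahler E M)
    (hnn : ∀ x : M, NonnegBisectionalAt E x) :
    (∀ (_ : MulAction ℂˣ M), IsHolomorphicAction E M →
      ∀ p : M, IsAttractingFixedPoint E p → PosBisectionalAt E p →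
        ∃ F : M ≃ₘ^1⟮𝓘(ℂ, E), 𝓘(ℂ, E)⟯ E, F p = 0 ∧
          (∀ v : E, (mfderiv 𝓘(ℂ, E) 𝓘(ℂ, E) F p : E → E) v = v) ∧
          (∀ (a : ℂˣ) (x : M), F (a • x) =
            (mfderiv 𝓘(ℂ, E) 𝓘(ℂ, E) (fun y : M => a • y) p : E → E) (F x)) ∧
          ∃ C > 0, ∀ (x : M) (R : ℝ), (∀ a : ℂˣ, ‖(a : ℂ)‖ = 1 → dist p (a • x) ≤ R) →
            ‖F x‖ ≤ C * Real.exp (C * R)) ∧
    ((∀ x : M, PosBisectionalAt E x) →
      (Nonempty (M ≃ₘ^1⟮𝓘(ℂ, E), 𝓘(ℂ, E)⟯ E) ↔
        ∃ _ : MulAction ℂˣ M, IsHolomorphicAction E M ∧ ∃ p : M, IsAttractingFixedPoint E p)) ∧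
    ∀ ρ : ℝ → M → M, IsHolIsomFlow E ρ →
      ∀ p : M, PosBisectionalAt E p → IsPosFixedPoint E ρ p →
        Nonempty (M ≃ₘ^1⟮𝓘(ℂ, E), 𝓘(ℂ, E)⟯ E) := by
  refine ⟨fun _ h p hp hpos => main_action hK hnn h hp hpos, fun hall => ⟨?_, ?_⟩,
    fun ρ hρ p hpos hp => main hK hnn hρ hpos hp⟩
  · rintro ⟨F⟩
    exact converse F
  · rintro ⟨_, h, p, hp⟩
    obtain ⟨F, -⟩ := main_action hK hnn h hp (hall p)
    exact ⟨F⟩

end Vale.Agent.Results.P253.AttractingCStar
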