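import Vale.Agent.P253.U165.Final

open scoped Manifold ContDiff Bundle
open Bundle Vale.Agent.P253.Mfd

namespace Vale.Agent.Results.P253.EquivariantLinearization

/-- A one-parameter group of holomorphic isometries with a fixed point with positive weights, on a
complete Kähler manifold of nonnegative bisectional curvature, is globally linearizable, with a
two-sided control of the growth of the linearizing coordinates; if the weights at the fixed point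
are equal, the inverse of the linearization is distance nonincreasing and the centralizer of the
group is linear. -/
theorem result {E : Type*} [NormedAddCommGroup E] [NormedSpace ℂ E] [FiniteDimensional ℂ E]
    {M : Type*} [MetricSpace M] [ChartedSpace E M]
    [IsManifold 𝓘(ℂ, E) 1 M] [IsManifold 𝓘(ℝ, E) ∞ M]
    [RiemannianBundle (fun x : M => TangentSpace 𝓘(ℝ, E) x)]
    [IsContMDiffRiemannianBundle 𝓘(ℝ, E) ∞ E (fun x : M => TangentSpace 𝓘(ℝ, E) x)]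
    [IsRiemannianManifold 𝓘(ℝ, E) M]
    [CompleteSpace M] [NoncompactSpace M] [ConnectedSpace M] (hK : IsKahler E M)
    (hnn : ∀ x : M, NonnegBisectionalAt E x) (ρ : ℝ → M → M) (hρ : IsHolIsomFlow E ρ)
    (p : M) (hpos : PosBisectionalAt E p) :
    (∀ (b : Module.Basis (Fin (Module.finrank ℂ E)) ℂ E) (m : Fin (Module.finrank ℂ E) → ℝ),
      HasWeights ρ p b m → ∃ F : M ≃ₘ^1⟮𝓘(ℂ, E), 𝓘(ℂ, E)⟯ E, IsLinearization ρ p F ∧
      (∃ C > 0, ∀ x : M, ‖F x‖ ≤ C * Real.exp (C * dist p x)) ∧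
      ∀ κ : ℝ, (∀ j k, m j ≤ κ * m k) → ∃ C > 0, ∀ x : M, dist p x ≤ C * (1 + ‖F x‖) ^ κ) ∧
    ∀ μ : ℝ, IsScalarFixedPoint E ρ p μ → ∃ F : M ≃ₘ^1⟮𝓘(ℂ, E), 𝓘(ℂ, E)⟯ E,
      IsLinearization ρ p F ∧
      (∀ F' : M ≃ₘ^1⟮𝓘(ℂ, E), 𝓘(ℂ, E)⟯ E, IsLinearization ρ p F' → F' = F) ∧
      (∃ C > 0, ∀ x : M, ‖F x‖ ≤ C * Real.exp (C * dist p x)) ∧
      (∀ (x : M) (v : E), sqLen (E := E) x v ≤
        sqLen (E := E) p ((mfderiv 𝓘(ℂ, E) 𝓘(ℂ, E) F x : E → E) v)) ∧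
      (∀ x y : M, dist x y ≤ √(sqLen (E := E) p (F x - F y))) ∧
      ∀ g : M → M, MDifferentiable 𝓘(ℂ, E) 𝓘(ℂ, E) g → (∀ t x, g (ρ t x) = ρ t (g x)) →
        g p = p ∧ ∀ x, F (g x) = (mfderiv 𝓘(ℂ, E) 𝓘(ℂ, E) g p : E → E) (F x) :=
  ⟨fun _ _ hw => Vale.Agent.P253.U165.main_weights hK hnn hρ hpos hw,
    fun _ hs => Vale.Agent.P253.U165.main_scalar hK hnn hρ hpos hs⟩

end Vale.Agent.Results.P253.EquivariantLinearization
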